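import Vale.Agent.P217.MainOf
import Vale.Agent.P217.Tilted
import Vale.Agent.P217.Mixed

/-!
# Invariant prime and radical ideals of the Lubin-Tate ring
-/

noncomputable section

namespace Vale.Agent.Results.P217.InvariantPrimeIdeals

open Vale.Agent.P217

/-- The invariant prime ideals of the Lubin-Tate ring are the height ideals, and the invariant
radical ideals are these and the unit ideal. -/
theorem result (p : ℕ) [Fact p.Prime] (n : ℕ) (hn : 1 ≤ n) (k : Type) [Field k] [Finite k]
    [CharP k p] (hk : Nat.card k = p ^ n) :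
    ∃ F : FormalGroup (E0 p n k),
    F.IsComm ∧ IsHazewinkel p n k F ∧ F.map (coeffFrob p n k) = F ∧
    mulSeries (special p n k F) p = PowerSeries.X ^ p ^ n ∧
    (∀ (A : Type) [CommRing A] [Algebra (WittVector p k) A] (π : A →+* k),
      π.comp (algebraMap (WittVector p k) A) = WittVector.constantCoeff → Function.Surjective π →
      IsAdicComplete (RingHom.ker π) A → ∀ (F' : FormalGroup A), F'.IsComm →
      ∀ g : PowerSeries k, IsHom g (F'.map π) (special p n k F) →
        IsUnit (PowerSeries.coeff 1 g) →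
        ∃! x : (E0 p n k →ₐ[WittVector p k] A) × PowerSeries A,
          PowerSeries.map π x.2 = g ∧ IsHom x.2 F' (F.map x.1.toRingHom)) ∧
    (∀ g : PowerSeries k, IsAut g (special p n k F) → ∃! α, IsMarkingChange p n k F g α) ∧
    (∀ g α, IsAut g (special p n k F) → IsMarkingChange p n k F g α → Function.Bijective α) ∧
    (∀ P : Ideal (E0 p n k), P.IsPrime ∧ GStable p n k F P ↔ ∃ h ≤ n, P = hIdeal p n k h) ∧
    (∀ I : Ideal (E0 p n k),
      I.IsRadical ∧ GStable p n k F I ↔ I = ⊤ ∨ ∃ h ≤ n, I = hIdeal p n k h) ∧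
    (∀ P : Ideal (E0 p n k), P.IsPrime ∧ Stable p n k F P ↔ ∃ h ≤ n, P = hIdeal p n k h) ∧
    (∀ I : Ideal (E0 p n k),
      I.IsRadical ∧ Stable p n k F I ↔ I = ⊤ ∨ ∃ h ≤ n, I = hIdeal p n k h) := by
  obtain ⟨F, hc, hF⟩ := exists_hazewinkel p n k
  exact ⟨F, main_of hn hF (prime_classification_of
    (mixed_deriv_eq_zero hn hk hF)
    (fun _ hh1 hhn => shiftPoint_upper_eq_zero hn hk hF hh1 hhn) hn)⟩

end Vale.Agent.Results.P217.InvariantPrimeIdeals
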